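import Crest.Agent.Lib.LT.More

/-!
Bounded quantifiers, counting, search and tables as operators that `fun_prop` understands.
-/

set_option autoImplicit false
set_option linter.unusedVariables false

namespace Crest.Agent.LT

open Function Crest.Agent.PT Crest.Agent.PT.Rp

def exlt (n : ℕ) (c : ℕ → Prop) : Prop := ∃ i < n, c i

def allt (n : ℕ) (c : ℕ → Prop) : Prop := ∀ i < n, c i

open Classical in
noncomputable def cntlt (n : ℕ) (c : ℕ → Prop) : ℕ := ((Finset.range n).filter c).card

open Classical in
noncomputable def tab (n : ℕ) (c : ℕ → Prop) : Word := (List.range n).map fun i => decide (c i)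

/-- `r` rounds of a table update, starting from the empty table. -/
noncomputable def rounds (N r : ℕ) (g : Word → ℕ → Prop) : Word := (fun T => tab N (g T))^[r] []

def flat (n P : ℕ) (g : ℕ → Word) : Word := (((List.range n).map g).flatten).take P

def mulc (m n P : ℕ) : ℕ := min (m * n) P

def powc (m k P : ℕ) : ℕ := min (m ^ k) P

/-- Entry `(i, j, k)` of a three-dimensional table. -/
def at3 (T : Word) (a b i j k : ℕ) : Prop := T.getD ((i * a + j) * b + k) false = true

theorem getD_tab (n : ℕ) (c : ℕ → Prop) (i : ℕ) : (tab n c).getD i false = true ↔ i < n ∧ c i := by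
  classical
  rw [tab, getD_rangeMap]; simp

section
variable {α : Type} [Rp α] {e : ℕ}

@[fun_prop] theorem td_exlt {n : α → ℕ} {c : α → ℕ → Prop} (he : 1 ≤ e) (hn : UD e n)
    (hc : TD (e - 1) fun p : α × Un => c p.1 p.2.val) : TD e fun a => exlt (n a) (c a) :=
  TD.exists_lt (by omega) hn hc

@[fun_prop] theorem td_allt {n : α → ℕ} {c : α → ℕ → Prop} (he : 1 ≤ e) (hn : UD e n)
    (hc : TD (e - 1) fun p : α × Un => c p.1 p.2.val) : TD e fun a => allt (n a) (c a) :=
  TD.forall_lt (by omega) hn hc

@[fun_prop] theorem ud_cntlt {n : α → ℕ} {c : α → ℕ → Prop} (he : 1 ≤ e) (hn : UD e n)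
    (hc : TD (e - 1) fun p : α × Un => c p.1 p.2.val) : UD e fun a => cntlt (n a) (c a) := by
  classical
  exact UD.card_filter (by omega) hn hc

@[fun_prop] theorem ud_find {n : α → ℕ} {c : α → ℕ → Prop} (he : 1 ≤ e) (hn : UD e n)
    (hc : TD (e - 1) fun p : α × Un => c p.1 p.2.val) : UD e fun a => find (n a) (c a) :=
  UD.find (by omega) hn hc

@[fun_prop] theorem td_tab {n : α → ℕ} {c : α → ℕ → Prop} (he : 1 ≤ e) (hn : UD e n)
    (hc : TD (e - 1) fun p : α × Un => c p.1 p.2.val) : TD e fun a => tab (n a) (c a) := by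
  classical
  exact TD.rangeMap (g := fun a i => decide (c a i)) (by omega) hn hc.decide

@[fun_prop] theorem td_rounds {N r : α → ℕ} {g : α → Word → ℕ → Prop} (he : 2 ≤ e)
    (hN : UD (e - 1) N) (hr : UD e r)
    (hg : TD (e - 2) fun p : (α × Word) × Un => g p.1.1 p.1.2 p.2.val) :
    TD e fun a => rounds (N a) (r a) (g a) := by
  classical
  exact TD.iter_table (d := e - 2) (g := fun a T i => decide (g a T i)) (by omega)
    (hN.le (by omega)) hr (TD.const _) hg.decide

@[fun_prop] theorem td_flat {n P : α → ℕ} {g : α → ℕ → Word} (he : 2 ≤ e) (hn : UD e n)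
    (hP : UD (e - 1) P) (hg : TD (e - 1) fun p : α × Un => g p.1 p.2.val) :
    TD e fun a => flat (n a) (P a) (g a) :=
  TD.flatRange (by omega) (by omega) hn hP hg

@[fun_prop] theorem ud_mulc {m n P : α → ℕ} (he : 2 ≤ e) (hm : UD e m) (hn : UD e n) (hP : UD e P) :
    UD e fun a => mulc (m a) (n a) (P a) := UD.mulMin he hm hn hP

@[fun_prop] theorem ud_powc {m P : α → ℕ} (k : ℕ) (he : 2 ≤ e) (hm : UD e m) (hP : UD e P) :
    UD e fun a => powc (m a) k (P a) := UD.powMin he hm hP k

@[fun_prop] theorem td_at3 {T : α → Word} {a b i j k : α → ℕ} (he : 2 ≤ e) (hT : TD e T)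
    (ha : UD e a) (hb : UD e b) (hi : UD e i) (hj : UD e j) (hk : UD e k) :
    TD e fun x => at3 (T x) (a x) (b x) (i x) (j x) (k x) := by
  have h1 := UD.mulMin he hi ha (UD.length (by omega) hT)
  have h2 := TD.at2 he hT hb (h1.add hj) hk
  have h3 : TD e fun x => b x = 0 := TD.neq (by omega) hb (UD.const 0)
  have h4 := TD.at2 he hT hb (UD.const 0) hk
  classical
  refine (TD.ite h3 h4 h2).congr fun x => ?_
  split_ifs with h
  · simp [at3, at2, h]
  · rcases le_total (i x * a x) (T x).length with h' | h'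
    · rw [min_eq_left h']; rfl
    · have hb' : 0 < b x := Nat.pos_of_ne_zero h
      have e1 := Nat.le_mul_of_pos_right (i x * a x + j x) hb'
      have e2 := Nat.le_mul_of_pos_right ((T x).length + j x) hb'
      rw [min_eq_right h', at2, at3, List.getD_eq_default _ _ (by omega),
        List.getD_eq_default _ _ (by omega)]

end

end Crest.Agent.LT
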