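import Crest.Agent.Lib.LT.Core

/-!
Functions with output of linear size computed in time `O(n ^ (d + 1))`. Composition keeps the degree,
a loop adds one.
-/

set_option autoImplicit false
set_option linter.unusedVariables false

namespace Crest.Agent.LT

open Function Crest.Agent.PT Crest.Agent.PT.Rp

/-- `g a = O((size a + 2) ^ d)`. -/
def OB {α : Type} [Rp α] (d : ℕ) (g : α → ℕ) : Prop := ∃ C, ∀ a, g a ≤ C * (sz a + 2) ^ d

section OB
variable {α β : Type} [Rp α] [Rp β] {d e : ℕ} {f g : α → ℕ}

theorem OB.const (d c : ℕ) : OB d fun _ : α => c :=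
  ⟨c, fun a => Nat.le_mul_of_pos_right _ (by positivity)⟩

theorem OB.mono (hg : OB d g) (h : ∀ a, f a ≤ g a) : OB d f := by
  obtain ⟨C, hC⟩ := hg; exact ⟨C, fun a => (h a).trans (hC a)⟩

theorem OB.le (hg : OB d g) (h : d ≤ e) : OB e g := by
  obtain ⟨C, hC⟩ := hg
  exact ⟨C, fun a => (hC a).trans (Nat.mul_le_mul_left _ (Nat.pow_le_pow_right (by omega) h))⟩

theorem OB.sz : OB 1 fun a : α => sz a := ⟨1, fun a => by simp⟩

theorem OB.add (hf : OB d f) (hg : OB d g) : OB d fun a => f a + g a := by
  obtain ⟨C, hC⟩ := hf; obtain ⟨D, hD⟩ := hg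
  exact ⟨C + D, fun a => by rw [add_mul]; exact Nat.add_le_add (hC a) (hD a)⟩

theorem OB.mul (hf : OB d f) (hg : OB e g) : OB (d + e) fun a => f a * g a := by
  obtain ⟨C, hC⟩ := hf; obtain ⟨D, hD⟩ := hg
  exact ⟨C * D, fun a => (Nat.mul_le_mul (hC a) (hD a)).trans (le_of_eq (by ring))⟩

theorem OB.cmul (c : ℕ) (hf : OB d f) : OB d fun a => c * f a := by
  simpa using (OB.const 0 c).mul hf

theorem OB.addc (hf : OB d f) (c : ℕ) : OB d fun a => f a + c := hf.add (OB.const d c)

theorem OB.comp_pow {g : β → ℕ} {s : ℕ} (hg : OB d g) {f : α → β}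
    (hf : OB s fun a => PT.sz (f a)) : OB (s * d) fun a => g (f a) := by
  obtain ⟨C, hC⟩ := hg; obtain ⟨D, hD⟩ := hf.addc 2
  refine ⟨C * D ^ d, fun a => (hC _).trans ?_⟩
  rw [mul_assoc, pow_mul, ← mul_pow]
  exact Nat.mul_le_mul_left _ (Nat.pow_le_pow_left (hD a) _)

theorem OB.comp {g : β → ℕ} (hg : OB d g) {f : α → β} (hf : OB 1 fun a => PT.sz (f a)) :
    OB d fun a => g (f a) := by simpa using hg.comp_pow hf

/-- A bound that depends on the size only, evaluated at a linearly bounded size. -/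
theorem OB.pow_of (hf : OB 1 f) (C d : ℕ) : OB d fun a => C * (f a + 2) ^ d := by
  obtain ⟨D, hD⟩ := hf.addc 2
  refine ⟨C * D ^ d, fun a => ?_⟩
  rw [mul_assoc, ← mul_pow]
  exact Nat.mul_le_mul_left _ (Nat.pow_le_pow_left (by simpa using hD a) _)

end OB

/-- Output of linear size, time `O(n ^ (d + 1))`. -/
@[fun_prop] def TD {α β : Type} [Rp α] [Rp β] (d : ℕ) (f : α → β) : Prop :=
  OB 1 (fun a => sz (f a)) ∧ ∃ T, OB (d + 1) T ∧ TM T f

/-- The same for a number written in unary. -/
@[fun_prop] def UD {α : Type} [Rp α] (d : ℕ) (n : α → ℕ) : Prop := TD d fun a => Un.mk (n a)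

/-- `fun_prop` with degree side conditions. -/
macro "td" : tactic => `(tactic| fun_prop (disch := omega))

section
variable {α β γ : Type} [Rp α] [Rp β] [Rp γ] {d e : ℕ}

theorem TD.le {f : α → β} (h : TD d f) (he : d ≤ e) : TD e f := by
  obtain ⟨h1, T, h2, h3⟩ := h
  exact ⟨h1, T, h2.le (by omega), h3⟩

theorem TD.sz {f : α → β} (h : TD d f) : OB 1 fun a => sz (f a) := h.1

theorem TD.congr {f g : α → β} (hf : TD d f) (h : ∀ a, g a = f a) : TD d g := by
  rwa [show g = f from funext h]

@[fun_prop] theorem TD.id : TD d fun a : α => a :=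
  ⟨OB.sz, _, ((OB.sz.cmul 9).addc 2).le (by omega), TM.id⟩

@[fun_prop] theorem TD.const (b : β) : TD d fun _ : α => b :=
  ⟨OB.const _ _, fun _ => PT.sz b + 1, OB.const _ _, fun j =>
    (TW.const (w b j)).mono fun _ => Nat.succ_le_succ (length_le_sz b j)⟩

@[fun_prop] theorem TD.comp {g : β → γ} {f : α → β} (hg : TD d g) (hf : TD d f) :
    TD d fun a => g (f a) := by
  obtain ⟨g1, Tg, g2, g3⟩ := hg
  obtain ⟨f1, Tf, f2, f3⟩ := hf
  exact ⟨g1.comp f1, _, (((f2.cmul _).addc 1).add (g2.comp f1)).add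
    (((f1.cmul 2).addc _).le (by omega)), fun j => (g3 j).comp f3⟩

@[fun_prop] theorem TD.fst {f : α → β × γ} (hf : TD d f) : TD d fun a => (f a).1 := by
  obtain ⟨f1, T, f2, f3⟩ := hf
  refine ⟨f1.mono fun a => ?_, T, f2, fun j => f3 (Sum.inl j)⟩
  rw [← Prod.mk.eta (p := f a), sz_prod]; simp

@[fun_prop] theorem TD.snd {f : α → β × γ} (hf : TD d f) : TD d fun a => (f a).2 := by
  obtain ⟨f1, T, f2, f3⟩ := hf
  refine ⟨f1.mono fun a => ?_, T, f2, fun j => f3 (Sum.inr j)⟩
  rw [← Prod.mk.eta (p := f a), sz_prod]; simp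

@[fun_prop] theorem TD.pair {f : α → β} {g : α → γ} (hf : TD d f) (hg : TD d g) :
    TD d fun a => (f a, g a) := by
  obtain ⟨g1, Tg, g2, g3⟩ := hg
  obtain ⟨f1, Tf, f2, f3⟩ := hf
  refine ⟨(f1.add g1).mono fun a => by simp, _, f2.add g2, ?_⟩
  rintro (j | j)
  · exact (f3 j).mono fun a => Nat.le_add_right _ _
  · exact (g3 j).mono fun a => Nat.le_add_left _ _

theorem TD.cases {c : α → Word} {fn ft ff : α → β} (hc : TD d c) (hn : TD d fn)
    (ht : TD d ft) (hf : TD d ff) :
    TD d fun a => match (c a).head? with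
      | none => fn a
      | some true => ft a
      | some false => ff a := by
  obtain ⟨c1, T, c2, c3⟩ := hc
  obtain ⟨n1, T1, n2, n3⟩ := hn
  obtain ⟨t1, T2, t2, t3⟩ := ht
  obtain ⟨f1, T3, f2, f3⟩ := hf
  have c1' : OB 1 fun a => (w (c a) ()).length := c1.mono fun a => length_le_sz (c a) ()
  refine ⟨((n1.add t1).add f1).mono fun a => ?_, _, (c2.add (((n2.add t2).add f2).addc 1)).add
    (((c1'.cmul 2).addc 1).le (by omega)), fun j => ?_⟩
  · beta_reduce
    rcases (c a).head? with _ | _ | _ <;> simp only <;> omega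
  · have := TW.cases (c3 ()) (n3 j) (t3 j) (f3 j)
    refine Eq.mp ?_ this
    congr 1
    funext a
    show (match (c a).head? with
      | none => w (fn a) j
      | some true => w (ft a) j
      | some false => w (ff a) j) = _
    beta_reduce
    rcases (c a).head? with _ | _ | _ <;> rfl

@[fun_prop] theorem TD.cond {c : α → Bool} {f g : α → β} (hc : TD d c) (hf : TD d f)
    (hg : TD d g) : TD d fun a => bif c a then f a else g a := by
  have hc' : TD d fun a => ([c a] : Word) := by
    obtain ⟨c1, T, c2, c3⟩ := hc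
    exact ⟨(OB.const 1 1).mono fun a => by simp, T, c2, fun _ => c3 ()⟩
  refine (TD.cases hc' hf hf hg).congr fun a => ?_
  cases c a <;> rfl

theorem TD.foldl {σ : Type} [Rp σ] {l : α → Word} {init : α → σ} {step : α → σ → Bool → σ}
    (he : d + 1 ≤ e) (hl : TD e l) (hi : TD e init)
    (hs : TD d fun p : α × σ × Bool => step p.1 p.2.1 p.2.2) {B : α → ℕ} (hB : OB 1 B)
    (hb : ∀ a k, PT.sz (((l a).take k).foldl (step a) (init a)) ≤ B a) :
    TD e fun a => (l a).foldl (step a) (init a) := by
  obtain ⟨l1, Tl, l2, l3⟩ := hl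
  obtain ⟨i1, Ti, i2, i3⟩ := hi
  obtain ⟨s1, Ts, ⟨C, hC⟩, s3⟩ := hs
  have hG : OB (d + 1) fun a => C * (PT.sz a + (B a + 1) + 2) ^ (d + 1) :=
    (OB.sz.add (hB.addc 1)).pow_of C _
  have hB' : OB (d + 1) B := hB.le (by omega)
  have hB'' : OB (e + 1) B := hB.le (by omega)
  have l1' : OB 1 fun a => (l a).length := by simpa using l1
  refine ⟨hB.mono fun a => by simpa using hb a (l a).length, _, ?_,
    TM.foldl (l3 ()) i3 s3 hb (G0 := fun a => C * (PT.sz a + (B a + 1) + 2) ^ (d + 1))
      fun a st b hst => (hC _).trans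
        (Nat.mul_le_mul_left _ (Nat.pow_le_pow_left (by simp; omega) _))⟩
  refine (((l2.add ((i2.cmul _).addc 1)).add (OB.addc (OB.le (l1'.mul (d := 1) (e := d + 1) ?_)
    (by omega)) 1)).add ((hB''.cmul 9).addc 2)).add ((hB''.cmul 2).addc _)
  exact ((((((hG.cmul _).addc 1).add ((((hB'.cmul 9).addc 2).cmul _).addc 1)).add
    (hB'.cmul 4)).addc _).addc 5)

/-! ### Words -/

theorem TD.length_ob {f : α → Word} (hf : TD d f) : OB 1 fun a => (f a).length := by
  simpa using hf.sz

@[fun_prop] theorem TD.append {f g : α → Word} (hf : TD d f) (hg : TD d g) :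
    TD d fun a => f a ++ g a := by
  have h1 := hf.length_ob
  have h2 := hg.length_ob
  obtain ⟨g1, Tg, g2, g3⟩ := hg
  obtain ⟨f1, Tf, f2, f3⟩ := hf
  exact ⟨(h1.add h2).mono fun a => by simp, _, ((g2.add f2).add (((h1.cmul 9).addc 2).le
    (by omega))).add (((h1.cmul 2).addc 1).le (by omega)), fun _ => TW.append (f3 ()) (g3 ())⟩

theorem TD.single {b : α → Bool} (hb : TD d b) : TD d fun a => ([b a] : Word) := by
  obtain ⟨c1, T, c2, c3⟩ := hb
  exact ⟨(OB.const 1 1).mono fun a => by simp, T, c2, fun _ => c3 ()⟩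

@[fun_prop] theorem TD.cons {b : α → Bool} {f : α → Word} (hb : TD d b) (hf : TD d f) :
    TD d fun a => b a :: f a := hb.single.append hf

@[fun_prop] theorem TD.tail {f : α → Word} (hf : TD d f) : TD d fun a => (f a).tail := by
  obtain ⟨f1, Tf, f2, f3⟩ := hf
  exact ⟨f1.mono fun a => by simp, _, f2.addc 1, fun _ => TW.tail (f3 ())⟩

@[fun_prop] theorem TD.headD {f : α → Word} {b : α → Bool} (hf : TD d f) (hb : TD d b) :
    TD d fun a => (f a).headD (b a) := by
  refine (TD.cases hf hb (TD.const true) (TD.const false)).congr fun a => ?_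
  rcases f a with _ | ⟨_ | _, _⟩ <;> rfl

/-! ### Booleans and propositions -/

theorem sz_prop (p : Prop) : PT.sz p = 1 := by
  show ∑ _ : Unit, 1 = 1
  simp

@[fun_prop] theorem TD.decide {c : α → Prop} [∀ a, Decidable (c a)] (hc : TD d c) :
    TD d fun a => decide (c a) := by
  obtain ⟨c1, T, c2, c3⟩ := hc
  refine ⟨(OB.const 1 1).mono fun a => by simp, T, c2, fun _ => ?_⟩
  have := c3 ()
  convert this using 2 with a
  show [Decidable.decide (c a)] = [@Decidable.decide (c a) (Classical.dec _)]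
  congr

theorem TD.of_bool {c : α → Prop} {b : α → Bool} (hb : TD d b) (h : ∀ a, c a ↔ b a = true) :
    TD d c := by
  obtain ⟨c1, T, c2, c3⟩ := hb
  refine ⟨(OB.const 1 1).mono fun a => (sz_prop _).le, T, c2, fun _ => ?_⟩
  have := c3 ()
  convert this using 2 with a
  show [@Decidable.decide (c a) (Classical.dec _)] = [b a]
  congr 1
  cases hb' : b a <;> simp [h, hb']

@[fun_prop] theorem TD.ite {c : α → Prop} [∀ a, Decidable (c a)] {f g : α → β} (hc : TD d c)
    (hf : TD d f) (hg : TD d g) : TD d fun a => if c a then f a else g a :=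
  (hc.decide.cond hf hg).congr fun a => by by_cases h : c a <;> simp [h]

@[fun_prop] theorem TD.bnot {b : α → Bool} (hb : TD d b) : TD d fun a => !b a :=
  (hb.cond (TD.const false) (TD.const true)).congr fun a => by cases b a <;> rfl

@[fun_prop] theorem TD.band {b c : α → Bool} (hb : TD d b) (hc : TD d c) :
    TD d fun a => b a && c a :=
  (hb.cond hc (TD.const false)).congr fun a => by cases b a <;> rfl

@[fun_prop] theorem TD.bor {b c : α → Bool} (hb : TD d b) (hc : TD d c) :
    TD d fun a => b a || c a :=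
  (hb.cond (TD.const true) hc).congr fun a => by cases b a <;> rfl

@[fun_prop] theorem TD.beq {b c : α → Bool} (hb : TD d b) (hc : TD d c) :
    TD d fun a => b a = c a :=
  (hb.cond hc hc.bnot).of_bool fun a => by cases b a <;> cases c a <;> simp

@[fun_prop] theorem TD.not {c : α → Prop} (hc : TD d c) : TD d fun a => ¬ c a := by
  classical
  exact hc.decide.bnot.of_bool fun a => by simp

@[fun_prop] theorem TD.and {c c' : α → Prop} (hc : TD d c) (hd : TD d c') :
    TD d fun a => c a ∧ c' a := by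
  classical
  exact (hc.decide.band hd.decide).of_bool fun a => by simp

@[fun_prop] theorem TD.or {c c' : α → Prop} (hc : TD d c) (hd : TD d c') :
    TD d fun a => c a ∨ c' a := by
  classical
  exact (hc.decide.bor hd.decide).of_bool fun a => by simp

@[fun_prop] theorem TD.imp {c c' : α → Prop} (hc : TD d c) (hd : TD d c') :
    TD d fun a => c a → c' a :=
  (hc.not.or hd).congr fun a => by rw [imp_iff_not_or]

theorem TD.eq_nil {f : α → Word} (hf : TD d f) : TD d fun a => f a = [] := by
  refine (TD.cases hf (TD.const true) (TD.const false) (TD.const false)).of_bool fun a => ?_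
  rcases f a with _ | ⟨_ | _, _⟩ <;> simp

/-! ### Unary numbers -/

theorem UD.word_iff {n : α → ℕ} : UD d n ↔ TD d fun a => List.replicate (n a) true :=
  ⟨fun ⟨h1, T, h2, h3⟩ => ⟨by simpa using h1, T, h2, fun _ => h3 ()⟩,
    fun ⟨h1, T, h2, h3⟩ => ⟨by simpa using h1, T, h2, fun _ => h3 ()⟩⟩

theorem UD.ob {n : α → ℕ} (h : UD d n) : OB 1 n := by simpa using TD.sz h

theorem UD.le {n : α → ℕ} (h : UD d n) (he : d ≤ e) : UD e n := TD.le h he

theorem UD.congr {m n : α → ℕ} (h : UD d n) (h' : ∀ a, m a = n a) : UD d m := by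
  rwa [show m = n from funext h']

@[fun_prop] theorem UD.const (c : ℕ) : UD d fun _ : α => c := TD.const _

@[fun_prop] theorem UD.comp {n : β → ℕ} {f : α → β} (hn : UD d n) (hf : TD d f) :
    UD d fun a => n (f a) := TD.comp (g := fun b => Un.mk (n b)) hn hf

@[fun_prop] theorem UD.val {f : α → Un} (hf : TD d f) : UD d fun a => (f a).val := hf

@[fun_prop] theorem TD.unMk {n : α → ℕ} (hn : UD d n) : TD d fun a => Un.mk (n a) := hn

@[fun_prop] theorem UD.add {m n : α → ℕ} (hm : UD d m) (hn : UD d n) :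
    UD d fun a => m a + n a :=
  UD.word_iff.2 <| ((UD.word_iff.1 hm).append (UD.word_iff.1 hn)).congr fun a => by
    rw [List.replicate_add]

@[fun_prop] theorem UD.ite {c : α → Prop} [∀ a, Decidable (c a)] {m n : α → ℕ} (hc : TD d c)
    (hm : UD d m) (hn : UD d n) : UD d fun a => if c a then m a else n a :=
  (TD.ite hc hm hn).congr fun a => by beta_reduce; split_ifs <;> rfl

/-- Counted loop: `F a` is computed by iterating `step a`. -/
theorem TD.loop {σ : Type} [Rp σ] (F : α → ℕ → σ) (step : α → σ → ℕ → σ) {n : α → ℕ}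
    (he : d + 1 ≤ e) (hn : UD e n) (h0 : TD e fun a => F a 0)
    (hs : TD d fun p : α × σ × Un => step p.1 p.2.1 p.2.2.val)
    (hF : ∀ a k, k < n a → F a (k + 1) = step a (F a k) k)
    {B : α → ℕ} (hB : OB 1 B) (hb : ∀ a k, k ≤ n a → PT.sz (F a k) ≤ B a) :
    TD e fun a => F a (n a) := by
  have key : ∀ a k, k ≤ n a → (List.replicate k true).foldl
      (fun (s : σ × Un) (_ : Bool) => (step a s.1 s.2.val, Un.mk (s.2.val + 1))) (F a 0, Un.mk 0)
      = (F a k, Un.mk k) := by
    intro a k
    induction k with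
    | zero => intro _; rfl
    | succ k ih =>
        intro hk
        rw [List.replicate_succ', List.foldl_append, ih (by omega), hF a k (by omega)]
        rfl
  have := TD.foldl (σ := σ × Un) (l := fun a => List.replicate (n a) true)
    (init := fun a => (F a 0, Un.mk 0))
    (step := fun a s _ => (step a s.1 s.2.val, Un.mk (s.2.val + 1))) he (UD.word_iff.1 hn)
    (h0.pair (TD.const _))
    (TD.pair
      (hs.comp (f := fun p : α × (σ × Un) × Bool => (p.1, p.2.1.1, p.2.1.2)) (by td))
      (by td))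
    (hB.add hn.ob) (fun a k => by
      rw [List.take_replicate, key a _ (min_le_right _ _), sz_prod, sz_un]
      exact Nat.add_le_add (hb a _ (min_le_right _ _)) (min_le_right _ _))
  exact this.fst.congr fun a => by rw [key a _ le_rfl]

@[fun_prop] theorem UD.length {f : α → Word} (he : 1 ≤ e) (hf : TD e f) :
    UD e fun a => (f a).length := by
  have key : ∀ (l : Word) (k : ℕ), l.foldl (fun (s : Un) (_ : Bool) => Un.mk (s.val + 1)) (Un.mk k)
      = Un.mk (k + l.length) := by
    intro l
    induction l with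
    | nil => intro k; rfl
    | cons b l ih => intro k; rw [List.foldl_cons, ih]; simp; omega
  have := TD.foldl (d := 0) (σ := Un) (init := fun _ => Un.mk 0)
    (step := fun _ s _ => Un.mk (s.val + 1)) he hf (TD.const _) (by td) hf.sz
    (fun a k => by rw [key]; simp)
  exact this.congr fun a => by rw [key]; simp

@[fun_prop] theorem TD.drop {f : α → Word} {n : α → ℕ} (he : 1 ≤ e) (hn : UD e n) (hf : TD e f) :
    TD e fun a => (f a).drop (n a) :=
  TD.loop (d := 0) (fun a k => (f a).drop k) (fun _ s _ => s.tail) he hn (by simpa using hf) (by td)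
    (fun a k _ => by simp) hf.sz (fun a k _ => by simp)

@[fun_prop] theorem TD.reverse {f : α → Word} (he : 1 ≤ e) (hf : TD e f) :
    TD e fun a => (f a).reverse := by
  have := TD.foldl (d := 0) (σ := Word) (init := fun _ => [])
    (step := fun _ s b => b :: s) he hf (TD.const _) (by td) hf.sz (fun a k => by simp)
  exact this.congr fun a => by simp

@[fun_prop] theorem UD.sub {m n : α → ℕ} (he : 1 ≤ e) (hm : UD e m) (hn : UD e n) :
    UD e fun a => m a - n a :=
  UD.word_iff.2 <| (TD.drop he hn (UD.word_iff.1 hm)).congr fun a => by simp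

@[fun_prop] theorem TD.nle {m n : α → ℕ} (he : 1 ≤ e) (hm : UD e m) (hn : UD e n) :
    TD e fun a => m a ≤ n a :=
  (UD.word_iff.1 (hm.sub he hn)).eq_nil.congr fun a => by simp [Nat.sub_eq_zero_iff_le]

@[fun_prop] theorem TD.nlt {m n : α → ℕ} (he : 1 ≤ e) (hm : UD e m) (hn : UD e n) :
    TD e fun a => m a < n a :=
  (TD.nle he hn hm).not.congr fun a => by simp

@[fun_prop] theorem TD.neq {m n : α → ℕ} (he : 1 ≤ e) (hm : UD e m) (hn : UD e n) :
    TD e fun a => m a = n a :=
  ((TD.nle he hm hn).and (TD.nle he hn hm)).congr fun a => by simp [le_antisymm_iff]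

@[fun_prop] theorem TD.nne {m n : α → ℕ} (he : 1 ≤ e) (hm : UD e m) (hn : UD e n) :
    TD e fun a => m a ≠ n a := (TD.neq he hm hn).not

@[fun_prop] theorem UD.min {m n : α → ℕ} (he : 1 ≤ e) (hm : UD e m) (hn : UD e n) :
    UD e fun a => min (m a) (n a) :=
  UD.congr (n := fun a => if m a ≤ n a then m a else n a) (by td) fun a => min_def _ _

@[fun_prop] theorem TD.take {f : α → Word} {n : α → ℕ} (he : 1 ≤ e) (hn : UD e n) (hf : TD e f) :
    TD e fun a => (f a).take (n a) :=
  ((TD.drop he ((UD.length he hf).sub he hn) (hf.reverse he)).reverse he).congr fun a => by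
    rw [List.drop_reverse, List.reverse_reverse]
    rcases le_total (n a) (f a).length with h | h
    · congr 1; omega
    · rw [List.take_of_length_le h, List.take_of_length_le (by omega)]

@[fun_prop] theorem TD.getD {f : α → Word} {n : α → ℕ} {b : α → Bool} (he : 1 ≤ e) (hf : TD e f)
    (hn : UD e n) (hb : TD e b) : TD e fun a => (f a).getD (n a) (b a) :=
  ((TD.drop he hn hf).headD hb).congr fun a => by
    simp [List.getD_eq_getElem?_getD, List.headD_eq_head?_getD, List.head?_drop]

@[fun_prop] theorem UD.lead {f : α → Word} (he : 1 ≤ e) (hf : TD e f) :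
    UD e fun a => lead (f a) := by
  have key : ∀ (l : Word) (c : Bool) (k : ℕ), (l.foldl
      (fun (s : Bool × Un) (b : Bool) => (s.1 && b, bif s.1 && b then Un.mk (s.2.val + 1) else s.2))
      (c, Un.mk k)).2 = Un.mk (k + bif c then PT.lead l else 0) := by
    intro l
    induction l with
    | nil => intro c k; cases c <;> rfl
    | cons b l ih =>
        intro c k
        rw [List.foldl_cons]
        cases c <;> cases b <;> simp [ih, PT.lead] <;> omega
  have := TD.foldl (d := 0) (σ := Bool × Un) (init := fun _ => (true, Un.mk 0))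
    (step := fun _ s b => (s.1 && b, bif s.1 && b then Un.mk (s.2.val + 1) else s.2)) he hf
    (TD.const _) (by td) (hf.sz.addc 1)
    (fun a k => by
      rw [← Prod.mk.eta (p := List.foldl _ _ _), key, sz_prod]
      have : PT.lead ((f a).take k) ≤ (f a).length :=
        (List.takeWhile_sublist _).length_le.trans (by simp)
      simp; omega)
  exact this.snd.congr fun a => by rw [key]; simp

end

end Crest.Agent.LT
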