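import Crest.Agent.Lib.PT.Basic
import Crest.Prelude.Def_TimeBound

/-!
Explicit time bounds for the register programs of `Lib/PT`.
-/

set_option autoImplicit false

namespace Crest.Agent.LT

open Function Crest.Agent.PT Crest.Agent.PT.Rp

/-- The word-valued function `f` is computed within `T a` steps. -/
def TW {α : Type} [Rp α] (T : α → ℕ) (f : α → Word) : Prop :=
  ∀ (X : I α → ℕ) (y z : ℕ), (∀ i, X i < z) → y < z → (∀ i, X i ≠ y) →
    ∃ p : Prog, ∀ a s, (∀ i, s (X i) = w a i) → s y = [] → (∀ r, z ≤ r → s r = []) →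
      Run p s (update s y (f a)) (T a)

/-- Every component of `f` is computed within `T a` steps. -/
def TM {α β : Type} [Rp α] [Rp β] (T : α → ℕ) (f : α → β) : Prop :=
  ∀ j, TW T fun a => w (f a) j

section
variable {α β γ : Type} [Rp α] [Rp β] [Rp γ]

theorem TW.mono {T T' : α → ℕ} {f : α → Word} (h : TW T f) (hT : ∀ a, T a ≤ T' a) : TW T' f := by
  intro X y z hX hy hXy
  obtain ⟨p, hp⟩ := h X y z hX hy hXy
  exact ⟨p, fun a s h1 h2 h3 => (hp a s h1 h2 h3).mono (hT a)⟩

theorem TM.mono {T T' : α → ℕ} {f : α → β} (h : TM T f) (hT : ∀ a, T a ≤ T' a) : TM T' f :=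
  fun j => (h j).mono hT

theorem TW.var (i : I α) : TW (fun a : α => 9 * PT.sz a + 2) fun a : α => w a i := by
  refine fun X y z hX hy hXy => ⟨copyP (X i) y z, fun a s hs hy0 hz => ?_⟩
  have := run_copy (hXy i) (hX i).ne hy.ne s (hz z le_rfl)
  rw [hy0, hs i, List.append_nil] at this
  exact this.mono (by have := length_le_sz a i; simp only; omega)

theorem TW.nil : TW (fun _ : α => 1) fun _ : α => [] :=
  fun X y z _ _ _ => ⟨.skip, fun a s _ hy0 _ => by
    rw [← hy0, update_eq_self]; exact Run.skip s⟩

theorem TW.cons (b : Bool) {T : α → ℕ} {f : α → Word} (h : TW T f) :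
    TW (fun a => T a + 1) fun a => b :: f a := by
  intro X y z hX hy hXy
  obtain ⟨p, hp⟩ := h X y z hX hy hXy
  refine ⟨.seq p (.push y b), fun a s hs hy0 hz => ?_⟩
  simpa using (hp a s hs hy0 hz).seq (Run.push y b _)

theorem TW.tail {T : α → ℕ} {f : α → Word} (h : TW T f) :
    TW (fun a => T a + 1) fun a => (f a).tail := by
  intro X y z hX hy hXy
  obtain ⟨p, hp⟩ := h X y z hX hy hXy
  refine ⟨.seq p (.pop y), fun a s hs hy0 hz => ?_⟩
  simpa using (hp a s hs hy0 hz).seq (Run.pop y _)

theorem TW.const (c : Word) : TW (fun _ : α => c.length + 1) fun _ : α => c := by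
  induction c with
  | nil => exact TW.nil
  | cons b c ih => exact ih.cons b

theorem TW.append {T T' : α → ℕ} {f g : α → Word} (h : TW T f) (h' : TW T' g) :
    TW (fun a => T' a + T a + (9 * (f a).length + 2) + (2 * (f a).length + 1))
      fun a => f a ++ g a := by
  intro X y z hX hy hXy
  obtain ⟨p, hp⟩ := h X z (z + 1) (fun i => (hX i).trans z.lt_succ_self) z.lt_succ_self
    (fun i => (hX i).ne)
  obtain ⟨p', hp'⟩ := h' X y z hX hy hXy
  refine ⟨.seq (.seq (.seq p' p) (copyP z y (z + 1))) (clearP z), fun a s hs hy0 hz => ?_⟩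
  have h1 := hp' a s hs hy0 hz
  have h2 := hp a (update s y (g a)) (fun i => by rw [update_of_ne (hXy i), hs])
    (by rw [update_of_ne hy.ne', hz z le_rfl])
    (fun r hr => by rw [update_of_ne (by omega), hz r (by omega)])
  have h3 := run_copy (x := z) (y := y) (t := z + 1) hy.ne' (by omega) (by omega)
    (update (update s y (g a)) z (f a))
    (by rw [update_of_ne (by omega), update_of_ne (by omega), hz _ (by omega)])
  have h4 := ((h1.seq h2).seq h3).seq (run_clear z _)
  refine h4.cast (by simp [update_of_ne hy.ne']) ?_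
  funext k
  by_cases hk : k = z
  · subst hk; simp [update_of_ne hy.ne', hz k le_rfl]
  · by_cases hk' : k = y
    · subst hk'; simp [update_of_ne hk]
    · simp [update_of_ne hk, update_of_ne hk']

theorem TW.cases {T T1 T2 T3 : α → ℕ} {c fn ft ff : α → Word} (h : TW T c) (h1 : TW T1 fn)
    (h2 : TW T2 ft) (h3 : TW T3 ff) :
    TW (fun a => T a + (T1 a + T2 a + T3 a + 1) + (2 * (c a).length + 1))
      fun a => match (c a).head? with
      | none => fn a
      | some true => ft a
      | some false => ff a := by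
  intro X y z hX hy hXy
  have hX' : ∀ i, X i < z + 1 := fun i => (hX i).trans z.lt_succ_self
  obtain ⟨p, hp⟩ := h X z (z + 1) hX' z.lt_succ_self (fun i => (hX i).ne)
  obtain ⟨p1, hp1⟩ := h1 X y (z + 1) hX' (by omega) hXy
  obtain ⟨p2, hp2⟩ := h2 X y (z + 1) hX' (by omega) hXy
  obtain ⟨p3, hp3⟩ := h3 X y (z + 1) hX' (by omega) hXy
  refine ⟨.seq (.seq p (.ite z p1 p2 p3)) (clearP z), fun a s hs hy0 hz => ?_⟩
  have e1 := hp a s hs (hz z le_rfl) (fun r hr => hz r (by omega))
  have a1 : ∀ i, update s z (c a) (X i) = w a i := fun i => by rw [update_of_ne (hX i).ne, hs]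
  have a2 : update s z (c a) y = [] := by rw [update_of_ne hy.ne, hy0]
  have a3 : ∀ r, z + 1 ≤ r → update s z (c a) r = [] := fun r hr => by
    rw [update_of_ne (by omega), hz r (by omega)]
  have e2 : Run (.ite z p1 p2 p3) (update s z (c a)) (update (update s z (c a)) y
      (match (c a).head? with
      | none => fn a
      | some true => ft a
      | some false => ff a)) (T1 a + T2 a + T3 a + 1) := by
    rcases hh : (c a).head? with _ | _ | _
    · exact (Run.iteN (by simpa using hh) (hp1 a _ a1 a2 a3)).mono (by omega)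
    · exact (Run.iteF (by simpa using hh) (hp3 a _ a1 a2 a3)).mono (by omega)
    · exact (Run.iteT (by simpa using hh) (hp2 a _ a1 a2 a3)).mono (by omega)
  have h4 := (e1.seq e2).seq (run_clear z _)
  refine h4.cast (by simp [update_of_ne hy.ne']) ?_
  funext k
  by_cases hk : k = z
  · subst hk; simp [update_of_ne hy.ne', hz k le_rfl]
  · by_cases hk' : k = y
    · subst hk'; simp [update_of_ne hk]
    · simp [update_of_ne hk, update_of_ne hk']

/-- Computing all components of a value into an empty block. -/
theorem TM.assignAll {T : α → ℕ} {f : α → β} (h : TM T f) (X : I α → ℕ) (Y : I β → ℕ) (z : ℕ)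
    (hY : Injective Y) (hX : ∀ i, X i < z) (hYz : ∀ j, Y j < z) (hXY : ∀ i j, X i ≠ Y j) :
    ∃ p : Prog, ∀ a s, (∀ i, s (X i) = w a i) → (∀ j, s (Y j) = []) → (∀ r, z ≤ r → s r = []) →
      ∃ s', Run p s s' (Fintype.card (I β) * T a + 1) ∧ (∀ j, s' (Y j) = w (f a) j) ∧
        ∀ r, (∀ j, Y j ≠ r) → s' r = s r := by
  obtain ⟨p, hp⟩ := seqAll (A := α) Y hY
    (fun a s => (∀ i, s (X i) = w a i) ∧ ∀ r, z ≤ r → s r = [])
    (fun a s s' hs hs' => ⟨fun i => by rw [hs' _ fun j => (hXY i j).symm, hs.1],
      fun r hr => by rw [hs' _ fun j => by have := hYz j; omega, hs.2 r hr]⟩)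
    (fun _ _ => []) (fun a j => w (f a) j) (fun a _ => T a)
    (fun j => by
      obtain ⟨p, hp⟩ := h j X (Y j) z hX (hYz j) (fun i => hXY i j)
      exact ⟨p, fun a s hs h0 => hp a s hs.1 h0 hs.2⟩)
  refine ⟨p, fun a s hs h0 hz => ?_⟩
  simpa using hp a s ⟨hs, hz⟩ h0

theorem TW.comp {T : α → ℕ} {T' : β → ℕ} {g : β → Word} (h' : TW T' g) {f : α → β}
    (hf : TM T f) :
    TW (fun a => (Fintype.card (I β) * T a + 1) + T' (f a) +
      (2 * PT.sz (f a) + (Fintype.card (I β) + 1))) fun a => g (f a) := by
  have h := hf.assignAll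
  intro X y z hX hy hXy
  obtain ⟨Y, z', hY, hz', hYz⟩ := exists_fresh (I β) z
  obtain ⟨p, hp⟩ := h X Y z' hY (fun i => (hX i).trans_le hz') (fun j => (hYz j).2)
    (fun i j => by have := hX i; have := hYz j; omega)
  obtain ⟨p', hp'⟩ := h' Y y z' (fun j => (hYz j).2) (by omega)
    (fun j => by have := hYz j; omega)
  obtain ⟨pc, hpc⟩ := clearAll Y hY
  refine ⟨.seq (.seq p p') pc, fun a s hs hy0 hz => ?_⟩
  obtain ⟨s1, e1, a1, b1⟩ := hp a s hs (fun j => hz _ (hYz j).1) (fun r hr => hz r (by omega))
  have e2 := hp' (f a) s1 a1 (by rw [b1 _ fun j => by have := hYz j; omega, hy0])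
    (fun r hr => by rw [b1 _ fun j => by have := hYz j; omega, hz r (by omega)])
  obtain ⟨s3, e3, a3, b3⟩ := hpc (update s1 y (g (f a)))
  have hYy : ∀ j, Y j ≠ y := fun j => by have := hYz j; omega
  refine ((e1.seq e2).seq e3).cast
    (by simp only [update_of_ne (hYy _), a1, sum_clear_le]; exact le_rfl) ?_
  funext k
  by_cases hk : ∃ j, Y j = k
  · obtain ⟨j, rfl⟩ := hk
    rw [a3, update_of_ne (hYy j), hz _ (hYz j).1]
  · push Not at hk
    rw [b3 k hk]
    by_cases hk' : k = y
    · subst hk'; simp
    · rw [update_of_ne hk', update_of_ne hk', b1 k hk]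

theorem TM.id : TM (fun a : α => 9 * PT.sz a + 2) fun a : α => a := fun j => TW.var j

theorem TM.foldl {σ : Type} [Rp σ] {l : α → Word} {init : α → σ} {step : α → σ → Bool → σ}
    {Tl Ti G0 B : α → ℕ} {Ts0 : α × σ × Bool → ℕ} (h1 : TW Tl l) (hi : TM Ti init)
    (hs : TM Ts0 fun p : α × σ × Bool => step p.1 p.2.1 p.2.2)
    (hb : ∀ a k, PT.sz (((l a).take k).foldl (step a) (init a)) ≤ B a)
    (hG0 : ∀ a st b, PT.sz st ≤ B a → Ts0 (a, st, b) ≤ G0 a) :
    TM (fun a => Tl a + (Fintype.card (I σ) * Ti a + 1) + ((l a).length *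
      ((Fintype.card (I σ) * G0 a + 1) + (Fintype.card (I σ) * (9 * B a + 2) + 1) + 4 * B a +
        2 * (Fintype.card (I σ) + 1) + 5) + 1) + (9 * B a + 2) + (2 * B a + (Fintype.card (I σ) + 1)))
      fun a => (l a).foldl (step a) (init a) := by
  intro j0
  have h2 := hi.assignAll
  have h3 := hs.assignAll
  have h4 := (TM.id (α := σ)).assignAll
  have h5 := TW.var (α := σ) j0
  set c1 := Fintype.card (I σ) with hc1
  set c0 := c1 + 1 with hc0
  let G : α → ℕ := fun a => (c1 * G0 a + 1) + (c1 * (9 * B a + 2) + 1) + 4 * B a + 2 * c0 + 5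
  intro X y z hX hy hXy
  obtain ⟨S, z1, hS, hz1, hSz⟩ := exists_fresh (I σ) (z + 2)
  obtain ⟨S', z2, hS', hz2, hSz'⟩ := exists_fresh (I σ) z1
  obtain ⟨p1, hp1⟩ := h1 X z z2 (fun i => by have := hX i; omega) (by omega) (fun i => (hX i).ne)
  obtain ⟨p2, hp2⟩ := h2 X S z2 hS (fun i => by have := hX i; omega)
    (fun j => by have := hSz j; omega) (fun i j => by have := hX i; have := hSz j; omega)
  obtain ⟨p3, hp3⟩ := h3 (Sum.elim X (Sum.elim S fun _ => z + 1)) S' z2 hS'
    (by
      rintro (i | j | u)
      · have := hX i; simp only [Sum.elim_inl]; omega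
      · have := hSz j; simp only [Sum.elim_inl, Sum.elim_inr]; omega
      · simp only [Sum.elim_inr]; omega)
    (fun j => (hSz' j).2)
    (by
      rintro (i | j | u) j'
      · have := hX i; have := hSz' j'; simp only [Sum.elim_inl]; omega
      · have := hSz j; have := hSz' j'; simp only [Sum.elim_inl, Sum.elim_inr]; omega
      · have := hSz' j'; simp only [Sum.elim_inr]; omega)
  obtain ⟨p4, hp4⟩ := h4 S' S z2 hS (fun j => (hSz' j).2) (fun j => by have := hSz j; omega)
    (fun i j => by have := hSz' i; have := hSz j; omega)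
  obtain ⟨p5, hp5⟩ := h5 S y z2 (fun j => by have := hSz j; omega) (by omega)
    (fun j => by have := hSz j; omega)
  obtain ⟨pc, hpc⟩ := clearAll S hS
  obtain ⟨pc', hpc'⟩ := clearAll S' hS'
  let body : Prog := .seq (.seq (.seq (.seq (.seq (.seq
    (.ite z .skip (.push (z + 1) true) (.push (z + 1) false)) (.pop z)) p3) pc) (.pop (z + 1))) p4)
    pc'
  refine ⟨.seq (.seq (.seq (.seq p1 p2) (.loop z body)) p5) pc, fun a s0 hs0 hy0 hz0 => ?_⟩
  -- the invariant
  let Inv : Word → σ → St → Prop := fun l' st s => s z = l' ∧ (∀ j, s (S j) = w st j) ∧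
    ∀ r, r ≠ z → (∀ j, S j ≠ r) → s r = s0 r
  have hbody : ∀ b l' st s, Inv (b :: l') st s → PT.sz st ≤ B a → PT.sz (step a st b) ≤ B a →
      ∃ s', Run body s s' (G a - 1) ∧ Inv l' (step a st b) s' := by
    rintro b l' st s ⟨i1, i2, i3⟩ hst hst'
    have hz1' : s (z + 1) = [] := by
      rw [i3 _ (by omega) fun j => by have := hSz j; omega, hz0 _ (by omega)]
    have e1 : Run (.ite z .skip (.push (z + 1) true) (.push (z + 1) false)) s
        (update s (z + 1) [b]) 2 := by
      cases b
      · exact Run.iteF (by simp [i1]) (by simpa [hz1'] using Run.push (z + 1) false s)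
      · exact Run.iteT (by simp [i1]) (by simpa [hz1'] using Run.push (z + 1) true s)
    have e2 := Run.pop z (update s (z + 1) [b])
    rw [update_of_ne (by omega), i1, List.tail_cons] at e2
    set s2 := update (update s (z + 1) [b]) z l' with hs2
    have a2 : ∀ r, r ≠ z → r ≠ z + 1 → s2 r = s r := fun r h h' => by
      rw [hs2, update_of_ne h, update_of_ne h']
    obtain ⟨s3, e3, a3, b3⟩ := hp3 (a, st, b) s2
      (by
        rintro (i | j | u)
        · have := hX i
          show s2 (X i) = w a i
          rw [a2 _ (by omega) (by omega), i3 _ (by omega) fun j => by have := hSz j; omega, hs0]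
        · have := hSz j
          show s2 (S j) = w st j
          rw [a2 _ (by omega) (by omega), i2]
        · show s2 (z + 1) = [b]
          rw [hs2, update_of_ne (by omega), update_self])
      (fun j => by
        have := hSz' j
        rw [a2 _ (by omega) (by omega), i3 _ (by omega) fun j => by have := hSz j; omega,
          hz0 _ (by omega)])
      (fun r hr => by
        rw [a2 _ (by omega) (by omega), i3 _ (by omega) fun j => by have := hSz j; omega,
          hz0 _ (by omega)])
    obtain ⟨s4, e4, a4, b4⟩ := hpc s3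
    have e5 := Run.pop (z + 1) s4
    have h41 : s4 (z + 1) = [b] := by
      rw [b4 _ fun j => by have := hSz j; omega, b3 _ fun j => by have := hSz' j; omega, hs2,
        update_of_ne (by omega), update_self]
    rw [h41, List.tail_cons] at e5
    obtain ⟨s6, e6, a6, b6⟩ := hp4 (step a st b) (update s4 (z + 1) [])
      (fun j => by
        have := hSz' j
        rw [update_of_ne (by omega), b4 _ fun j => by have := hSz j; omega, a3])
      (fun j => by have := hSz j; rw [update_of_ne (by omega), a4])
      (fun r hr => by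
        rw [update_of_ne (by omega), b4 _ fun j => by have := hSz j; omega,
          b3 _ fun j => by have := hSz' j; omega,
          a2 _ (by omega) (by omega), i3 _ (by omega) fun j => by have := hSz j; omega,
          hz0 _ (by omega)])
    obtain ⟨s7, e7, a7, b7⟩ := hpc' s6
    refine ⟨s7, ((((((e1.seq e2).seq e3).seq e4).seq e5).seq e6).seq e7).mono ?_, ?_, ?_, ?_⟩
    · have t3 : c1 * Ts0 (a, st, b) ≤ c1 * G0 a := Nat.mul_le_mul_left _ (hG0 a st b hst)
      have t6 : c1 * (9 * PT.sz (step a st b) + 2) ≤ c1 * (9 * B a + 2) :=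
        Nat.mul_le_mul_left _ (by omega)
      have t4 : ∑ j, (2 * (s3 (S j)).length + 1) + 1 = 2 * PT.sz st + c0 := by
        rw [← sum_clear_le]
        congr 1
        refine Finset.sum_congr rfl fun j _ => ?_
        have := hSz j
        rw [b3 _ fun j => by have := hSz' j; omega, a2 _ (by omega) (by omega), i2]
      have t7 : ∑ j, (2 * (s6 (S' j)).length + 1) + 1 = 2 * PT.sz (step a st b) + c0 := by
        rw [← sum_clear_le]
        congr 1
        refine Finset.sum_congr rfl fun j _ => ?_
        have := hSz' j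
        rw [b6 _ fun j => by have := hSz j; omega, update_of_ne (by omega),
          b4 _ fun j => by have := hSz j; omega, a3]
      rw [t4, t7]
      simp only [G]
      omega
    · rw [b7 _ fun j => by have := hSz' j; omega, b6 _ fun j => by have := hSz j; omega,
        update_of_ne (by omega), b4 _ fun j => by have := hSz j; omega,
        b3 _ fun j => by have := hSz' j; omega, hs2, update_self]
    · intro j
      have := hSz j
      rw [b7 _ fun j => by have := hSz' j; omega, a6]
    · intro r hr hr'
      by_cases h' : ∃ j, S' j = r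
      · obtain ⟨j, rfl⟩ := h'
        have := hSz' j
        rw [a7, hz0 _ (by omega)]
      · push Not at h'
        rw [b7 _ h', b6 _ hr']
        by_cases h'' : r = z + 1
        · subst h''; rw [update_self, hz0 _ (by omega)]
        · rw [update_of_ne h'', b4 _ hr', b3 _ h', a2 _ hr h'', i3 _ hr hr']
  have hG1 : 1 ≤ G a := by simp only [G]; omega
  have hloop : ∀ l' st s, Inv l' st s → (∀ k, PT.sz ((l'.take k).foldl (step a) st) ≤ B a) →
      ∃ s', Run (.loop z body) s s' (l'.length * G a + 1) ∧ Inv [] (l'.foldl (step a) st) s' := by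
    intro l'
    induction l' with
    | nil => intro st s hI _; exact ⟨s, by simpa using Run.loopN hI.1, hI⟩
    | cons b l' ih =>
        intro st s hI hk
        obtain ⟨s1, e1, I1⟩ := hbody b l' st s hI (by simpa using hk 0) (by simpa using hk 1)
        obtain ⟨s2, e2, I2⟩ := ih _ s1 I1 (fun k => by simpa using hk (k + 1))
        refine ⟨s2, (Run.loopC (by simp [hI.1]) e1 e2).mono ?_, I2⟩
        simp only [List.length_cons, add_mul]; omega
  have e1 := hp1 a s0 hs0 (hz0 z le_rfl) (fun r hr => hz0 r (by omega))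
  obtain ⟨s2, e2, a2, b2⟩ := hp2 a (update s0 z (w (l a) ()))
    (fun i => by rw [update_of_ne (hX i).ne, hs0])
    (fun j => by have := hSz j; rw [update_of_ne (by omega), hz0 _ (by omega)])
    (fun r hr => by rw [update_of_ne (by omega), hz0 _ (by omega)])
  obtain ⟨s3, e3, i1, i2, i3⟩ := hloop (l a) (init a) s2
    ⟨by rw [b2 _ fun j => by have := hSz j; omega, update_self]; rfl, a2,
      fun r hr hr' => by rw [b2 _ hr', update_of_ne hr]⟩ (hb a)
  have hfin : PT.sz ((l a).foldl (step a) (init a)) ≤ B a := by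
    simpa using hb a (l a).length
  have e4 := hp5 _ s3 i2 (by rw [i3 _ (by omega) fun j => by have := hSz j; omega, hy0])
    (fun r hr => by rw [i3 _ (by omega) fun j => by have := hSz j; omega, hz0 _ (by omega)])
  obtain ⟨s5, e5, a5, b5⟩ := hpc (update s3 y (w ((l a).foldl (step a) (init a)) j0))
  refine ((((e1.seq e2).seq e3).seq e4).seq e5).cast ?_ ?_
  · have t5 : ∑ j, (2 * (update s3 y (w ((l a).foldl (step a) (init a)) j0) (S j)).length + 1) + 1
        = 2 * PT.sz ((l a).foldl (step a) (init a)) + c0 := by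
      rw [← sum_clear_le]
      congr 1
      refine Finset.sum_congr rfl fun j _ => ?_
      have := hSz j
      rw [update_of_ne (by omega), i2]
    rw [t5]
    simp only [G]
    omega
  · funext r
    by_cases h' : ∃ j, S j = r
    · obtain ⟨j, rfl⟩ := h'
      have := hSz j
      rw [a5, update_of_ne (by omega), hz0 _ (by omega)]
    · push Not at h'
      rw [b5 _ h']
      by_cases h'' : r = y
      · subst h''; simp
      · rw [update_of_ne h'', update_of_ne h'']
        by_cases h3 : r = z
        · subst h3; rw [i1, hz0 _ le_rfl]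
        · rw [i3 _ h3 h']

end

theorem timeBound_of_prog (f : Word → Word) (p : Prog) (t : ℕ → ℕ)
    (h : ∀ a, Run p (update (fun _ => []) 0 a) (update (fun _ => []) 1 (f a)) (t a.length)) :
    Crest.DTime.TimeBound f t := by
  refine ⟨{ tm := machine p, inputAlphabet := Equiv.refl _, outputAlphabet := Equiv.refl _,
            time := t, outputsFun := fun a => ?_ }, fun _ => le_rfl⟩
  refine { steps := (h a).choose, evals_in_steps := ?_, steps_le_m := (h a).choose_spec.1 }
  have hs := sim (R := p.maxReg + 1) (code p id none) (h a).choose_spec.2 (Nat.le_succ _) id none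
    (fun _ => rfl)
  have e0 : Turing.initList (machine p) (List.map (Equiv.refl Bool).invFun a) =
      (⟨some (entry p), none, res _ (update (fun _ => []) 0 a)⟩ : Cf (p.maxReg + 1) (Lbl p)) := by
    rw [← res_update (Nat.zero_le _)]
    unfold Turing.initList
    congr 1
    funext k
    by_cases hk : k = reg (p.maxReg + 1) 0
    · subst hk; simp [machine]
    · exact (dif_neg hk).trans (update_of_ne (β := fun _ => List Bool) hk _
        (res (p.maxReg + 1) fun _ => [])).symm
  have e1 : Turing.haltList (machine p) (List.map (Equiv.refl Bool).invFun (f a)) =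
      (⟨none, none, res _ (update (fun _ => []) 1 (f a))⟩ : Cf (p.maxReg + 1) (Lbl p)) := by
    rw [← res_update (Nat.le_add_left _ _)]
    unfold Turing.haltList
    congr 1
    funext k
    by_cases hk : k = reg (p.maxReg + 1) 1
    · subst hk; simp [machine]
    · exact (dif_neg hk).trans (update_of_ne (β := fun _ => List Bool) hk _
        (res (p.maxReg + 1) fun _ => [])).symm
  simp only [Option.map_some]
  exact (congrArg (fun c => iter (code p id none) _ (some c)) e0).trans
    (hs.trans (congrArg some e1.symm))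

theorem TW.timeBound {f : Word → Word} {t : ℕ → ℕ} (hf : TW (fun a : Word => t a.length) f) :
    Crest.DTime.TimeBound f fun n => t n + (2 * n + 1) := by
  obtain ⟨p, hp⟩ := hf (fun _ => 0) 1 2 (fun _ => by omega) (by omega) (fun _ => by omega)
  refine timeBound_of_prog f (.seq p (clearP 0)) _ fun a => ?_
  have e1 := hp a (update (fun _ => []) 0 a) (fun _ => rfl) rfl
    (fun r hr => by rw [update_of_ne (by omega)])
  refine (e1.seq (run_clear 0 _)).cast ?_ ?_
  · simp
  · funext r
    by_cases h0 : r = 0
    · subst h0; simp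
    · by_cases h1 : r = 1
      · subst h1; simp
      · simp [update_of_ne h0, update_of_ne h1]

end Crest.Agent.LT
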