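import Crest.Agent.Lib.LT.Basic
import Crest.Agent.R290.PTx

/-!
Arithmetic, tables, bounded quantifiers and padding with explicit degrees.
-/

set_option autoImplicit false
set_option linter.unusedVariables false

namespace Crest.Agent.LT

open Function Crest.Agent.PT Crest.Agent.PT.Rp

section
variable {α β γ : Type} [Rp α] [Rp β] [Rp γ] {d e : ℕ}

@[fun_prop] theorem TD.iff {c c' : α → Prop} (hc : TD d c) (hd : TD d c') :
    TD d fun a => (c a ↔ c' a) :=
  ((hc.imp hd).and (hd.imp hc)).congr fun a => by rw [iff_iff_implies_and_implies]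

theorem UD.mulMin_raw : UD 2 fun p : Un × Un × Un => Min.min (p.1.val * p.2.1.val) p.2.2.val :=
  TD.loop (d := 1) (fun (p : Un × Un × Un) k => Un.mk (Min.min (p.1.val * k) p.2.2.val))
    (fun p s _ => Un.mk (Min.min (s.val + p.1.val) p.2.2.val)) (n := fun p => p.2.1.val) le_rfl (by td)
    (by simpa using TD.const _) (by td)
    (fun a k _ => by rw [Nat.mul_succ]; congr 1; simp only; omega) (B := fun p => p.2.2.val)
    (UD.ob (d := 0) (by td)) (fun a k hk => by simp)

/-- Capped product. -/
theorem UD.mulMin {m n P : α → ℕ} (he : 2 ≤ e) (hm : UD e m) (hn : UD e n) (hP : UD e P) :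
    UD e fun a => Min.min (m a * n a) (P a) :=
  (UD.mulMin_raw.le he).comp (TD.pair hm (TD.pair hn hP))

theorem UD.powMin {m P : α → ℕ} (he : 2 ≤ e) (hm : UD e m) (hP : UD e P) (k : ℕ) :
    UD e fun a => Min.min (m a ^ k) (P a) := by
  induction k with
  | zero => simp only [pow_zero]; exact UD.min (by omega) (UD.const 1) hP
  | succ k ih =>
    refine (UD.mulMin he ih hm hP).congr fun a => ?_
    rw [pow_succ]
    rcases Nat.eq_zero_or_pos (m a) with h | h
    · simp [h]
    · rcases le_total (m a ^ k) (P a) with h' | h'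
      · rw [min_eq_left h']
      · rw [min_eq_right h', min_eq_right (Nat.le_mul_of_pos_right _ h),
          min_eq_right (h'.trans (Nat.le_mul_of_pos_right _ h))]

/-- Entry `(i, j)` of a table with rows of length `b`. -/
def at2 (T : Word) (b i j : ℕ) : Prop := T.getD (i * b + j) false = true

@[fun_prop] theorem TD.at2 {T : α → Word} {b i j : α → ℕ} (he : 2 ≤ e) (hT : TD e T) (hb : UD e b)
    (hi : UD e i) (hj : UD e j) : TD e fun a => at2 (T a) (b a) (i a) (j a) := by
  have h1 := UD.mulMin he hi hb (UD.length (by omega) hT)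
  refine TD.of_bool (b := fun a => (T a).getD (min (i a * b a) (T a).length + j a) false)
    (TD.getD (by omega) hT (h1.add hj) (TD.const _)) fun a => ?_
  rcases le_total (i a * b a) (T a).length with h | h
  · rw [min_eq_left h]; rfl
  · rw [min_eq_right h, LT.at2, List.getD_eq_default _ _ (by omega),
      List.getD_eq_default _ _ (by omega)]

theorem divmod_raw :
    TD 2 fun p : Un × Un => (Un.mk (p.1.val / p.2.val), Un.mk (p.1.val % p.2.val)) := by
  have := TD.loop (d := 1) (e := 2) (fun (p : Un × Un) k =>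
      (Un.mk (min k (p.1.val / p.2.val)), Un.mk (p.1.val - min k (p.1.val / p.2.val) * p.2.val)))
    (fun p s _ => if 0 < p.2.val ∧ p.2.val ≤ s.2.val then
      (Un.mk (s.1.val + 1), Un.mk (s.2.val - p.2.val)) else s) (n := fun p => p.1.val) le_rfl (by td)
    (by simp only [zero_le, inf_of_le_left, zero_mul, tsub_zero]; td) (by td)
    (fun a k _ => ?_) (B := fun p => p.1.val + p.1.val)
    (UD.ob (d := 0) (by td)) (fun a k hk => by simp; omega)
  · refine this.congr fun a => ?_
    rw [min_eq_right (Nat.div_le_self _ _), Nat.mod_def, mul_comm]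
  · obtain ⟨⟨m⟩, ⟨n⟩⟩ := a
    simp only
    have h1 := Nat.div_add_mod m n
    split_ifs with h
    · have h2 := Nat.mod_lt m h.1
      have h3 : k < m / n := by
        by_contra hc
        rw [min_eq_right (by omega), mul_comm] at h
        omega
      rw [min_eq_left (by omega), min_eq_left (by omega), add_mul, one_mul, Nat.sub_sub]
    · have h3 : m / n ≤ k := by
        by_contra hc
        rcases Nat.eq_zero_or_pos n with h0 | h0
        · simp [h0] at hc
        · rw [min_eq_left (by omega)] at h
          have : (k + 1) * n ≤ n * (m / n) := by rw [mul_comm]; exact Nat.mul_le_mul_left _ (by omega)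
          rw [add_mul] at this
          omega
      rw [min_eq_right (by omega), min_eq_right h3]

@[fun_prop] theorem UD.div {m n : α → ℕ} (he : 2 ≤ e) (hm : UD e m) (hn : UD e n) :
    UD e fun a => m a / n a :=
  ((divmod_raw.le he).comp (TD.pair hm hn)).fst

@[fun_prop] theorem UD.mod {m n : α → ℕ} (he : 2 ≤ e) (hm : UD e m) (hn : UD e n) :
    UD e fun a => m a % n a :=
  ((divmod_raw.le he).comp (TD.pair hm hn)).snd

/-- `m / b ^ k`. -/
def dvp (m b k : ℕ) : ℕ := m / b ^ k

theorem dvp_raw : UD 3 fun p : Un × Un × Un => dvp p.1.val p.2.1.val p.2.2.val :=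
  TD.loop (d := 2) (fun (p : Un × Un × Un) k => Un.mk (dvp p.1.val p.2.1.val k))
    (fun p s _ => Un.mk (s.val / p.2.1.val)) (n := fun p => p.2.2.val) le_rfl (by td)
    (by simp only [dvp, pow_zero, Nat.div_one]; td) (by td)
    (fun a k _ => by simp only [dvp]; rw [Nat.div_div_eq_div_mul, pow_succ]) (B := fun p => p.1.val)
    (UD.ob (d := 0) (by td)) (fun a k hk => by simpa [dvp] using Nat.div_le_self _ _)

@[fun_prop] theorem UD.dvp {m b k : α → ℕ} (he : 3 ≤ e) (hm : UD e m) (hb : UD e b) (hk : UD e k) :
    UD e fun a => dvp (m a) (b a) (k a) :=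
  (dvp_raw.le he).comp (TD.pair hm (TD.pair hb hk))

/-! ### Tables and bounded quantifiers -/

theorem TD.rangeMap {n : α → ℕ} {g : α → ℕ → Bool} (he : d + 1 ≤ e) (hn : UD e n)
    (hg : TD d fun p : α × Un => g p.1 p.2.val) : TD e fun a => (List.range (n a)).map (g a) :=
  TD.loop (fun a k => (List.range k).map (g a)) (fun a s k => s ++ [g a k]) he hn
    (by simpa using TD.const _)
    (TD.append (by td) (hg.comp (f := fun p : α × Word × Un => (p.1, p.2.2)) (by td)).single)
    (fun a k _ => by simp [List.range_succ]) hn.ob (fun a k hk => by simpa using hk)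

theorem TD.exists_lt {n : α → ℕ} {c : α → ℕ → Prop} (he : d + 1 ≤ e) (hn : UD e n)
    (hc : TD d fun p : α × Un => c p.1 p.2.val) : TD e fun a => ∃ i < n a, c a i :=
  TD.loop (fun a k => ∃ i < k, c a i) (fun a s k => s ∨ c a k) he hn
    ((TD.const False).congr fun a => by simp)
    (TD.or (by td) (hc.comp (f := fun p : α × Prop × Un => (p.1, p.2.2)) (by td)))
    (fun a k _ => propext Nat.exists_lt_succ_right) (OB.const 1 1) (fun a k _ => (sz_prop _).le)

theorem TD.forall_lt {n : α → ℕ} {c : α → ℕ → Prop} (he : d + 1 ≤ e) (hn : UD e n)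
    (hc : TD d fun p : α × Un => c p.1 p.2.val) : TD e fun a => ∀ i < n a, c a i :=
  (TD.exists_lt (c := fun a i => ¬ c a i) he hn hc.not).not.congr fun a => by simp

theorem UD.card_filter {n : α → ℕ} {c : α → ℕ → Prop} [∀ a i, Decidable (c a i)] (he : d + 1 ≤ e)
    (hn : UD e n) (hc : TD d fun p : α × Un => c p.1 p.2.val) :
    UD e fun a => ((Finset.range (n a)).filter (c a)).card := by
  have h1 : TD d fun p : α × Un × Un => c p.1 p.2.2.val :=
    hc.comp (f := fun p : α × Un × Un => (p.1, p.2.2)) (by td)
  exact TD.loop (fun a k => Un.mk ((Finset.range k).filter (c a)).card)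
    (fun a s k => Un.mk (if c a k then s.val + 1 else s.val)) he hn
    (by simpa using TD.const _) (TD.unMk (UD.ite h1 (by td) (by td)))
    (fun a k _ => by
      rw [Finset.range_add_one, Finset.filter_insert]
      split_ifs
      · rw [Finset.card_insert_of_notMem (by simp)]
      · rfl) hn.ob
    (fun a k hk => by
      rw [sz_un]
      exact (Finset.card_filter_le _ _).trans ((Finset.card_range _).le.trans hk))

open Classical in
/-- The least index below `n` with property `c` (or `n`). -/
noncomputable def find (n : ℕ) (c : ℕ → Prop) : ℕ :=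
  PT.lead ((List.range n).map fun i => !decide (c i))

theorem find_spec (m : ℕ) (c : ℕ → Prop) :
    find m c ≤ m ∧ (∀ i < find m c, ¬ c i) ∧ (find m c < m → c (find m c)) := by
  classical
  induction m generalizing c with
  | zero => simp [find, PT.lead]
  | succ m ih =>
    obtain ⟨h1, h2, h3⟩ := ih fun i => c (i + 1)
    by_cases h0 : c 0
    · simp [find, PT.lead, List.range_succ_eq_map, h0]
    · have e : find (m + 1) c = find m (fun i => c (i + 1)) + 1 := by
        simp [find, PT.lead, List.range_succ_eq_map, h0, Function.comp_def]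
      rw [e]
      refine ⟨by omega, fun i hi => ?_, fun h => h3 (by omega)⟩
      cases i with
      | zero => exact h0
      | succ i => exact h2 i (by omega)

theorem find_le {m i : ℕ} {c : ℕ → Prop} (h : c i) : find m c ≤ i := by
  by_contra hc
  exact (find_spec m c).2.1 i (by omega) h

theorem find_ok {m i : ℕ} {c : ℕ → Prop} (hi : i < m) (h : c i) : c (find m c) :=
  (find_spec m c).2.2 ((find_le h).trans_lt hi)

theorem UD.find {n : α → ℕ} {c : α → ℕ → Prop} (he : d + 1 ≤ e) (hn : UD e n)
    (hc : TD d fun p : α × Un => c p.1 p.2.val) : UD e fun a => find (n a) (c a) := by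
  classical
  exact UD.lead (by omega) (TD.rangeMap (g := fun a i => !decide (c a i)) he hn hc.decide.bnot)

/-- Capped concatenation. -/
theorem TD.flatRange {n P : α → ℕ} {g : α → ℕ → Word} (hd : 1 ≤ d) (he : d + 1 ≤ e) (hn : UD e n)
    (hP : UD d P) (hg : TD d fun p : α × Un => g p.1 p.2.val) :
    TD e fun a => (((List.range (n a)).map (g a)).flatten).take (P a) := by
  have h1 : TD d fun p : α × Word × Un => g p.1 p.2.2.val :=
    hg.comp (f := fun p : α × Word × Un => (p.1, p.2.2)) (by td)
  exact TD.loop (fun a k => (((List.range k).map (g a)).flatten).take (P a))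
    (fun a s k => (s ++ g a k).take (P a)) he hn (by simpa using TD.const _)
    (TD.take hd (hP.comp TD.id.fst) (TD.append (by td) h1))
    (fun a k _ => by
      simp only [List.range_succ, List.map_append, List.flatten_append, List.map_cons, List.map_nil,
        List.flatten_cons, List.flatten_nil, List.append_nil, List.take_append, List.take_take,
        min_self, List.length_take]
      congr 2
      omega) hP.ob (fun a k hk => by simp)

theorem TD.iter {σ : Type} [Rp σ] {step : α → σ → σ} {init : α → σ} {n : α → ℕ} (he : d + 1 ≤ e)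
    (hs : TD d fun p : α × σ => step p.1 p.2) (hi : TD e init) (hn : UD e n)
    {B : α → ℕ} (hB : OB 1 B) (hb : ∀ a k, k ≤ n a → PT.sz ((step a)^[k] (init a)) ≤ B a) :
    TD e fun a => (step a)^[n a] (init a) :=
  TD.loop (fun a k => (step a)^[k] (init a)) (fun a s _ => step a s) he hn hi
    (hs.comp (f := fun p : α × σ × Un => (p.1, p.2.1)) (by td))
    (fun a k _ => iterate_succ_apply' _ _ _) hB hb

/-- Iterating an update of a table of `N` bits. -/
theorem TD.iter_table {N n : α → ℕ} {g : α → Word → ℕ → Bool} {init : α → Word} (he : d + 2 ≤ e)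
    (hN : UD (d + 1) N) (hn : UD e n) (hi : TD e init)
    (hg : TD d fun p : (α × Word) × Un => g p.1.1 p.1.2 p.2.val) :
    TD e fun a => (fun T => (List.range (N a)).map (g a T))^[n a] (init a) := by
  refine TD.iter (d := d + 1) (step := fun a T => (List.range (N a)).map (g a T)) he
    (TD.rangeMap (g := fun p : α × Word => g p.1 p.2) le_rfl (hN.comp TD.id.fst) hg) hi hn
    (hN.ob.add hi.sz) fun a k _ => ?_
  cases k with
  | zero => simp
  | succ k => rw [iterate_succ_apply']; simp

/-! ### Binary codes -/

theorem size_eq_find (t : ℕ) : t.size = find t fun i => dvp t 2 i = 0 := by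
  obtain ⟨h1, h2, h3⟩ := find_spec t fun i => dvp t 2 i = 0
  have h4 : t.size ≤ t := Nat.size_le.2 Nat.lt_two_pow_self
  refine le_antisymm ?_ (find_le (Nat.div_eq_of_lt (Nat.lt_size_self t)))
  by_contra hc
  have := h3 (by omega)
  rw [dvp, Nat.div_eq_zero_iff_lt (by positivity), ← Nat.size_le] at this
  omega

theorem bits_eq_map (t : ℕ) :
    t.bits = (List.range t.size).map fun i => decide (dvp t 2 i % 2 = 1) := by
  refine List.ext_getElem (by simp [Nat.size_eq_bits_len]) fun i h1 h2 => ?_
  have := Nat.testBit_eq_inth t i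
  rw [List.getI, List.getD_eq_getElem _ _ h1, Nat.testBit_eq_decide_div_mod_eq] at this
  simp [← this, dvp]

theorem size_raw : UD 4 fun p : Un => p.val.size :=
  (UD.find (d := 3) (n := fun p : Un => p.val) (c := fun p i => dvp p.val 2 i = 0) le_rfl (by td)
    (by td)).congr fun a => size_eq_find _

@[fun_prop] theorem UD.size {m : α → ℕ} (he : 4 ≤ e) (hm : UD e m) : UD e fun a => (m a).size :=
  (size_raw.le he).comp hm

theorem natCode_raw : TD 4 fun p : Un => Crest.Enc.natCode p.val := by
  have hb : TD 4 fun p : Un => p.val.bits :=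
    (TD.rangeMap (d := 3) (n := fun p : Un => p.val.size)
      (g := fun p i => decide (dvp p.val 2 i % 2 = 1)) le_rfl size_raw (by td)).congr
      fun a => bits_eq_map _
  have key : ∀ (l acc : Word), l.foldl (fun (s : Word) (b : Bool) => s ++ [true, b]) acc =
      acc ++ (l.map fun b => [true, b]).flatten := by
    intro l
    induction l with
    | nil => simp
    | cons b l ih => intro acc; simp [ih]
  have := TD.foldl (d := 0) (σ := Word) (init := fun _ => [])
    (step := fun _ s b => s ++ [true, b]) (by omega) hb (TD.const _) (by td)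
    (hb.sz.cmul 2) (fun a k => by
      rw [key]; simp only [List.nil_append, sz_word, length_digits]; simp)
  exact (this.append (TD.const [false, false])).congr fun a => by
    rw [key]; rfl

@[fun_prop] theorem TD.natCode {m : α → ℕ} (he : 4 ≤ e) (hm : UD e m) :
    TD e fun a => Crest.Enc.natCode (m a) :=
  (natCode_raw.le he).comp (g := fun p : Un => Crest.Enc.natCode p.val) hm

/-! ### Padding -/

theorem sq_raw : ∃ T, OB 3 T ∧ TM T fun p : Un => Un.mk (p.val * p.val) := by
  have key : ∀ (m k c : ℕ), (List.replicate k true).foldl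
      (fun (s : Un) (_ : Bool) => Un.mk (s.val + m)) (Un.mk c) = Un.mk (c + k * m) := by
    intro m k
    induction k with
    | zero => intro c; simp
    | succ k ih => intro c; rw [List.replicate_succ, List.foldl_cons, ih]; congr 1; ring
  obtain ⟨l1, Tl, l2, l3⟩ : TD 0 fun p : Un => List.replicate p.val true := UD.word_iff.1 (by td)
  obtain ⟨i1, Ti, i2, i3⟩ : TD 0 fun p : Un => Un.mk 0 := TD.const _
  obtain ⟨s1, Ts, ⟨C, hC⟩, s3⟩ : TD 0 fun p : Un × Un × Bool => Un.mk (p.2.1.val + p.1.val) := by td
  have hv : OB 1 fun p : Un => p.val := UD.ob (d := 0) (by td)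
  have hB : OB 2 fun p : Un => p.val * p.val := hv.mul hv
  have hB3 := hB.le (show 2 ≤ 3 by omega)
  have hG : OB 2 fun p : Un => C * (p.val + (p.val * p.val + 1) + 2) :=
    (((hv.le (by omega)).add (hB.addc 1)).addc 2).cmul C
  have := TM.foldl (step := fun (p : Un) (s : Un) (_ : Bool) => Un.mk (s.val + p.val)) (l3 ()) i3 s3
    (B := fun p => p.val * p.val)
    (fun a k => by
      show PT.sz (List.foldl _ _ ((List.replicate a.val true).take k)) ≤ _
      rw [List.take_replicate, key, sz_un, zero_add]
      exact Nat.mul_le_mul_right _ (min_le_right _ _))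
    (G0 := fun p => C * (p.val + (p.val * p.val + 1) + 2))
    (fun a st b hst => (hC _).trans (Nat.mul_le_mul_left _ (by simp at hst ⊢; omega)))
  have e : (fun a : Un => List.foldl (fun (s : Un) (_ : Bool) => Un.mk (s.val + a.val)) (Un.mk 0)
      (w (List.replicate a.val true) ())) = fun p : Un => Un.mk (p.val * p.val) := by
    funext a
    show List.foldl _ _ (List.replicate a.val true) = _
    rw [key, zero_add]
  refine ⟨_, ?_, e ▸ this⟩
  · have l1' : OB 1 fun a : Un => (w (List.replicate a.val true) ()).length :=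
      l1.mono fun a => length_le_sz (List.replicate a.val true) ()
    refine ((((l2.le (by omega)).add (((i2.le (by omega)).cmul _).addc 1)).add
      (OB.addc (l1'.mul (d := 1) (e := 2) ?_) 1)).add ((hB3.cmul 9).addc 2)).add ((hB3.cmul 2).addc _)
    exact ((((((hG.cmul _).addc 1).add ((((hB.cmul 9).addc 2).cmul _).addc 1)).add
      (hB.cmul 4)).addc _).addc 5)

theorem pad (k : ℕ) :
    ∃ T, OB (3 * 2 ^ k) T ∧ TM T fun x : Word => Un.mk ((x.length + 2) ^ 2 ^ k) := by
  induction k with
  | zero =>
    obtain ⟨-, T, h1, h2⟩ : UD 1 fun x : Word => x.length + 2 := by td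
    exact ⟨T, h1.le (by omega), by simpa using h2⟩
  | succ k ih =>
    obtain ⟨T, h1, h2⟩ := ih
    obtain ⟨T', h3, h4⟩ := sq_raw
    have hs : OB (2 ^ k) fun x : Word => PT.sz (Un.mk ((x.length + 2) ^ 2 ^ k)) :=
      ⟨1, fun a => by simp⟩
    have hp : 0 < 2 ^ k := by positivity
    have h5 : TM _ fun x : Word => Un.mk ((x.length + 2) ^ 2 ^ k * (x.length + 2) ^ 2 ^ k) :=
      fun j => (h4 j).comp h2
    simp only [← pow_add, ← mul_two, ← pow_succ] at h5
    refine ⟨_, ?_, h5⟩
    · exact ((((h1.cmul _).addc 1).le (by rw [pow_succ]; omega)).add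
        ((h3.comp_pow hs).le (by rw [pow_succ]; omega))).add
        (((hs.cmul 2).addc _).le (by rw [pow_succ]; omega))

/-- A function of the input and of a polynomial padding. -/
theorem TD.timeBound_pad {g : Word × Un → Word} (hg : TD d g) (k D : ℕ)
    (hD : 2 ^ k * (d + 3) ≤ D) :
    ∃ C : ℕ, Crest.DTime.TimeBound (fun x => g (x, Un.mk ((x.length + 2) ^ 2 ^ k)))
      fun L => C * (L + 2) ^ D + C := by
  obtain ⟨T, h1, h2⟩ := pad k
  obtain ⟨g1, Tg, g2, g3⟩ := hg
  have hp : 0 < 2 ^ k := by positivity
  have hs : OB (2 ^ k) fun x : Word => PT.sz (x, Un.mk ((x.length + 2) ^ 2 ^ k)) :=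
    ((OB.sz.le hp).add ⟨1, fun a => le_of_eq (one_mul _).symm⟩).mono fun a => by simp
  have h3 : TM (fun x : Word => 9 * PT.sz x + 2 + T x)
      fun x : Word => (x, Un.mk ((x.length + 2) ^ 2 ^ k)) := by
    rintro (j | j)
    · exact (TM.id j).mono fun a => Nat.le_add_right _ _
    · exact (h2 j).mono fun a => Nat.le_add_left _ _
  have h4 := (g3 ()).comp h3
  have e1 : 2 ^ k * (d + 3) = 2 ^ k * d + 3 * 2 ^ k := by ring
  have e2 : 2 ^ k * (d + 1) = 2 ^ k * d + 2 ^ k := by ring
  obtain ⟨C, hC⟩ : OB D _ :=
    (((((((OB.sz.cmul 9).addc 2).le (show 1 ≤ D by omega)).add (h1.le (by omega))).cmul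
      (Fintype.card (I (Word × Un)))).addc 1).add ((g2.comp_pow hs).le (by omega))).add
      (((hs.cmul 2).addc (Fintype.card (I (Word × Un)) + 1)).le (by omega))
  have h5 := TW.timeBound (t := fun L => C * (L + 2) ^ D) (h4.mono fun a => by simpa using hC a)
  obtain ⟨M, hM⟩ := h5
  refine ⟨C + 2, M, fun L => (hM L).trans ?_⟩
  have : L + 2 ≤ (L + 2) ^ D := Nat.le_self_pow (by omega) _
  simp only [add_mul]
  omega

end

end Crest.Agent.LT
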